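import Vale.Agent.P133.H294.Weak
import Vale.Agent.P133.H512.Clause

/-!
P133 (helper294): the criterion with weak countable covers of the primitive ideal space.
-/

open scoped ComplexOrder

namespace Vale.Agent.P133.H294

open Vale.Agent.P133 Vale.Agent.P133.Statement Vale.Agent.P133.H832 Vale.Agent.P133F
  Vale.Agent.P133.H681 Vale.Agent.P133.R2.H28 Vale.Agent.P133.H512

universe u

/-- The criterion with weak countable covers: every closed ideal `P` is the intersection of the
closures of `P + J k` (every nonempty locally closed subset of the primitive ideal space meets one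
of the closed sets of the `J k`). -/
theorem pi_iff_weakCover {A : Type u} [NonUnitalCStarAlgebra A] [PartialOrder A]
    [StarOrderedRing A] (hW : WeaklyPurelyInfinite A) {J : ℕ → Submodule ℂ A}
    (hJ : ∀ k, IsClosedIdeal (J k))
    (hP : ∀ P : Submodule ℂ A, IsClosedIdeal P → ∀ x : A,
      (∀ k, x ∈ (P ⊔ J k).topologicalClosure) → x ∈ P) :
    PurelyInfinite A ↔ ∀ k, PiQuot (J k) := by
  constructor
  · intro hA k
    exact piQuot_of_pi hA (by rw [closure_of_closedIdeal (hJ k)]; exact hJ k)
  · intro H
    obtain ⟨n, hn⟩ := wpi_elementwise hW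
    refine pi_of_eltPI (eltPI_of_weakCover hn hJ hP fun k B _ _ _ φ hφ hk => ?_)
    refine piQuot_elt hφ (H k) fun x hx => ?_
    rw [closure_of_closedIdeal (hJ k)] at hx
    exact (hk x).2 hx

end Vale.Agent.P133.H294
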