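import Vale.Agent.P133.H294.Tents
import Vale.Agent.P133.H832.Diag
import Vale.Agent.P133.H832.Glu2
import Vale.Agent.P133.R2.H474.NS2
import Vale.Agent.P133.R2.H28.Ev

/-!
P133 (helper294): in a purely infinite C*-algebra the nowhere scalar elements are dense.
-/

open scoped ComplexOrder

namespace Vale.Agent.P133.H294

open Vale.Agent.P133 Vale.Agent.P133.Statement Vale.Agent.P133.H832 Vale.Agent.P133F
  Vale.Agent.P133.H681 Vale.Agent.P133.R2 Vale.Agent.P133.R2.H28 Vale.Agent.P133.R2.H474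

universe u

section

variable {A : Type u} [NonUnitalCStarAlgebra A]

/-- diagonalisation of the elements of a set -/
def DiagOn (R : Set A) : Prop :=
  ∀ (n : ℕ) (a : Fin n → A) (ε : ℝ), (∀ i, a i ∈ R) → 0 < ε → ∃ d : Fin n → A, (∀ i, ‖d i‖ ≤ 1) ∧
    ∀ i j, ‖star (a i * d i) * (a j * d j) - (if i = j then star (a i) * a i else 0)‖ < ε

theorem DiagOn.of_diag (hA : Diag A) : DiagOn (Set.univ : Set A) :=
  fun n a ε _ hε => hA n a ε hε

theorem diag_fintype {R : Set A} (hA : DiagOn R) {ι : Type*} [Fintype ι] [DecidableEq ι]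
    (a : ι → A) (ha : ∀ i, a i ∈ R) {ε : ℝ} (hε : 0 < ε) : ∃ d : ι → A, (∀ i, ‖d i‖ ≤ 1) ∧
      ∀ i j, ‖star (a i * d i) * (a j * d j) - (if i = j then star (a i) * a i else 0)‖ < ε := by
  let e := Fintype.equivFin ι
  obtain ⟨d, h1, h2⟩ := hA _ (fun k => a (e.symm k)) ε (fun k => ha _) hε
  refine ⟨fun i => d (e i), fun i => h1 _, fun i j => ?_⟩
  have := h2 (e i) (e j)
  simpa only [Equiv.symm_apply_apply, EmbeddingLike.apply_eq_iff_eq] using this

theorem inr_selfAdjoint {h : A} (hh : IsSelfAdjoint h) :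
    IsSelfAdjoint (h : Unitization ℂ A) := by
  rw [IsSelfAdjoint, ← Unitization.inr_star, hh.star_eq]

theorem inr_Lf {h : A} (hh : IsSelfAdjoint h) {f : ℝ → ℝ} (hf : Continuous f) (x : A) :
    ((Lf h f x : A) : Unitization ℂ A) =
      cfc f (h : Unitization ℂ A) * (x : Unitization ℂ A) := by
  have hH := inr_selfAdjoint hh
  have h1 : cfc f (h : Unitization ℂ A) = algebraMap ℝ (Unitization ℂ A) (f 0) +
      ((cfcₙ (fun s => f s - f 0) h : A) : Unitization ℂ A) := by
    rw [Unitization.real_cfcₙ_eq_cfc_inr h (fun s => f s - f 0) (by simp),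
      ← cfc_const_add (f 0) (fun s => f s - f 0) (h : Unitization ℂ A)
        ((hf.sub continuous_const).continuousOn)]
    congr 1
    funext s
    ring
  have h2 : ((f 0 • x : A) : Unitization ℂ A) = f 0 • (x : Unitization ℂ A) := by ext <;> simp
  rw [h1, add_mul, ← Algebra.smul_def, Lf, Unitization.inr_add, Unitization.inr_mul, h2]

theorem norm_Lf_le {h : A} (hh : IsSelfAdjoint h) {f : ℝ → ℝ} (hf : Continuous f) {m : ℝ}
    (hm : 0 ≤ m) (hfm : ∀ t, |f t| ≤ m) (x : A) : ‖Lf h f x‖ ≤ m * ‖x‖ := by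
  rw [← final_norm, inr_Lf hh hf, ← final_norm x]
  refine (norm_mul_le _ _).trans ?_
  gcongr
  exact norm_cfc_le hm fun t _ => hfm t

/-- products -/
theorem star_Lf_mul_Lf {h : A} (hh : IsSelfAdjoint h) {f g : ℝ → ℝ} (hf : Continuous f)
    (hg : Continuous g) (x y : A) :
    star (Lf h f x) * Lf h g y = star x * Lf h (fun t => f t * g t) y := by
  have hH := inr_selfAdjoint hh
  apply Unitization.inr_injective (R := ℂ)
  rw [Unitization.inr_mul, Unitization.inr_mul, Unitization.inr_star, inr_Lf hh hf, inr_Lf hh hg,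
    inr_Lf (f := fun t => f t * g t) hh (hf.mul hg), star_mul, ← Unitization.inr_star, cfc_mul f g _ hf.continuousOn
      hg.continuousOn]
  have h1 : star (cfc f (h : Unitization ℂ A)) = cfc f (h : Unitization ℂ A) :=
    (cfc_predicate (p := IsSelfAdjoint) f (h : Unitization ℂ A)).star_eq
  rw [h1]
  simp only [mul_assoc]

theorem Lf_add (h : A) (f : ℝ → ℝ) (x y : A) : Lf h f (x + y) = Lf h f x + Lf h f y := by
  simp only [Lf, smul_add, mul_add]; abel

theorem Lf_zero' (h : A) (f : ℝ → ℝ) : Lf h f 0 = 0 := by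
  simp only [Lf, smul_zero, mul_zero, add_zero]

theorem Lf_sum {ι : Type*} (s : Finset ι) (h : A) (f : ℝ → ℝ) (x : ι → A) :
    Lf h f (∑ i ∈ s, x i) = ∑ i ∈ s, Lf h f (x i) := by
  classical
  induction s using Finset.induction_on with
  | empty => simp only [Finset.sum_empty, Lf_zero']
  | insert i s hi ih => rw [Finset.sum_insert hi, Finset.sum_insert hi, Lf_add, ih]

theorem sum_Lf {ι : Type*} (s : Finset ι) {h : A} (hh : IsSelfAdjoint h) {f : ι → ℝ → ℝ}
    (hf : ∀ i, Continuous (f i)) (x : A) :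
    ∑ i ∈ s, Lf h (f i) x = Lf h (fun t => ∑ i ∈ s, f i t) x := by
  apply Unitization.inr_injective (R := ℂ)
  have h1 : ∀ s : Finset ι, ((∑ i ∈ s, Lf h (f i) x : A) : Unitization ℂ A) =
      ∑ i ∈ s, ((Lf h (f i) x : A) : Unitization ℂ A) := by
    classical
    intro s
    induction s using Finset.induction_on with
    | empty => simp
    | insert i s hi ih => rw [Finset.sum_insert hi, Finset.sum_insert hi, Unitization.inr_add, ih]
  have h2 : (fun t => ∑ i ∈ s, f i t) = ∑ i ∈ s, f i := by ext; simp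
  rw [h1, inr_Lf hh (continuous_finsetSum _ fun i _ => hf i), h2,
    cfc_sum f _ s fun i _ => (hf i).continuousOn, Finset.sum_mul]
  exact Finset.sum_congr rfl fun i _ => inr_Lf hh (hf i) x

theorem Lf_congr {h : A} (hh : IsSelfAdjoint h) {f g : ℝ → ℝ} (hf : Continuous f)
    (hg : Continuous g) (hfg : ∀ t, |t| ≤ ‖h‖ → f t = g t) (x : A) : Lf h f x = Lf h g x := by
  apply Unitization.inr_injective (R := ℂ)
  rw [inr_Lf hh hf, inr_Lf hh hg]
  congr 1
  refine cfc_congr fun t ht => hfg t ?_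
  have h1 := spectrum.norm_le_norm_of_mem ht
  rwa [final_norm] at h1

theorem Lf_one (h x : A) : Lf h (fun _ => 1) x = x := by
  have h1 : (fun _ : ℝ => (1 : ℝ) - 1) = fun _ => 0 := by funext; ring
  simp only [Lf, h1, cfcₙ_const_zero, zero_mul, one_smul, add_zero]

theorem Lf_id {h : A} (hh : IsSelfAdjoint h) (x : A) : Lf h (fun t => t) x = h * x := by
  have h1 : (fun s : ℝ => s - 0) = fun s => s := by funext; ring
  simp only [Lf, h1, zero_smul, zero_add]
  rw [cfcₙ_id' ℝ h]

theorem Lf_smul_fun {h : A} (hh : IsSelfAdjoint h) (r : ℝ) {f : ℝ → ℝ} (hf : Continuous f) (x : A) :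
    Lf h (fun t => r * f t) x = r • Lf h f x := by
  apply Unitization.inr_injective (R := ℂ)
  rw [inr_Lf (f := fun t => r * f t) hh (continuous_const.mul hf)]
  have h1 : ((r • Lf h f x : A) : Unitization ℂ A) = r • ((Lf h f x : A) : Unitization ℂ A) := by
    ext <;> simp
  rw [h1, inr_Lf hh hf, cfc_const_mul r f _ hf.continuousOn, smul_mul_assoc]

theorem Lf_add_fun {h : A} (hh : IsSelfAdjoint h) {f g : ℝ → ℝ} (hf : Continuous f)
    (hg : Continuous g) (x : A) :
    Lf h (fun t => f t + g t) x = Lf h f x + Lf h g x := by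
  apply Unitization.inr_injective (R := ℂ)
  rw [inr_Lf (f := fun t => f t + g t) hh (hf.add hg), Unitization.inr_add, inr_Lf hh hf, inr_Lf hh hg,
    cfc_add _ f g hf.continuousOn hg.continuousOn, add_mul]

theorem Lf_Lf {h : A} (hh : IsSelfAdjoint h) {f g : ℝ → ℝ} (hf : Continuous f)
    (hg : Continuous g) (x : A) : Lf h f (Lf h g x) = Lf h (fun t => f t * g t) x := by
  apply Unitization.inr_injective (R := ℂ)
  rw [inr_Lf (f := fun t => f t * g t) hh (hf.mul hg), inr_Lf hh hf, inr_Lf hh hg,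
    cfc_mul f g _ hf.continuousOn hg.continuousOn, mul_assoc]

theorem Lf_smul (h : A) (f : ℝ → ℝ) (r : ℝ) (x : A) : Lf h f (r • x) = r • Lf h f x := by
  simp only [Lf, smul_add, mul_smul_comm, smul_comm r]

/-- almost orthogonal families -/
theorem weights {N : ℕ} {z w q : Fin N → A} {ε : ℝ}
    (hz : ∀ k l, ‖star (z k) * w l - (if k = l then q k else 0)‖ ≤ ε) (u v : Fin N → ℝ) :
    ‖star (∑ k, u k • z k) * (∑ l, v l • w l) - ∑ k, (u k * v k) • q k‖ ≤
      (∑ k, |u k|) * (∑ l, |v l|) * ε := by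
  have h1 : star (∑ k, u k • z k) * (∑ l, v l • w l) - ∑ k, (u k * v k) • q k =
      ∑ k, ∑ l, (u k * v l) • (star (z k) * w l - (if k = l then q k else 0)) := by
    have h2 : ∑ k, (u k * v k) • q k = ∑ k, ∑ l, (u k * v l) • (if k = l then q k else 0) := by
      refine Finset.sum_congr rfl fun k _ => ?_
      rw [Finset.sum_eq_single k]
      · rw [if_pos rfl]
      · intro l _ hl; rw [if_neg (Ne.symm hl), smul_zero]
      · intro h; exact absurd (Finset.mem_univ _) h
    rw [h2, star_sum, Finset.sum_mul_sum, ← Finset.sum_sub_distrib]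
    refine Finset.sum_congr rfl fun k _ => ?_
    rw [← Finset.sum_sub_distrib]
    refine Finset.sum_congr rfl fun l _ => ?_
    rw [smul_sub, star_smul, star_trivial, smul_mul_smul_comm]
  rw [h1, Finset.sum_mul_sum, Finset.sum_mul]
  refine norm_sum_le_of_le _ fun k _ => ?_
  rw [Finset.sum_mul]
  refine norm_sum_le_of_le _ fun l _ => ?_
  rw [norm_smul, Real.norm_eq_abs, abs_mul]
  exact mul_le_mul_of_nonneg_left (hz k l) (by positivity)

/-- in an algebra with diagonalisation, two almost orthogonal elements of the same size through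
which `h` looks the same -/
theorem exists_pair_on {R : Set A} (hA : DiagOn R) {b h e : A}
    (hR : ∀ f : ℝ → ℝ, Continuous f → Lf h f e ∈ R) (hh : IsSelfAdjoint h) (hhb : h ∈ her b)
    (heb : e ∈ her b) (he1 : ‖e‖ ≤ 1) {η : ℝ} (hη : 0 < η) (hη1 : η ≤ 1) :
    ∃ (S : Bool → A) (g : A), (∀ i, S i ∈ RI b) ∧ (∀ i, ‖star (S i) * S i - star e * e‖ ≤ η) ∧
      ‖star (S true) * S false‖ ≤ η ∧ ∀ i, ‖star (S i) * (h * S i) - g‖ ≤ η := by
  obtain ⟨N, F, c, G, l, hF, hG, hGm, hFs, hFl⟩ :=
    exists_partition ‖h‖ (m := η / 32) (by positivity)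
  obtain ⟨a, ha⟩ : ∃ a : Fin N → A, ∀ k, a k = Lf h (F k) e := ⟨_, fun _ => rfl⟩
  obtain ⟨L, hL⟩ : ∃ L : ℝ, L = ∑ k, |l k| := ⟨_, rfl⟩
  have hL0 : 0 ≤ L := by rw [hL]; exact Finset.sum_nonneg fun _ _ => abs_nonneg _
  obtain ⟨ε, hε⟩ : ∃ ε : ℝ, ε = η / (2 * ((N : ℝ) * N + N * L + 1)) := ⟨_, rfl⟩
  have hε0 : 0 < ε := by rw [hε]; positivity
  have hNε : (N : ℝ) * N * ε ≤ η / 2 := by
    rw [hε, ← mul_div_assoc, div_le_div_iff₀ (by positivity) (by norm_num)]
    have : 0 ≤ (N : ℝ) * L := by positivity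
    nlinarith
  have hLε : (N : ℝ) * L * ε ≤ η / 2 := by
    rw [hε, ← mul_div_assoc, div_le_div_iff₀ (by positivity) (by norm_num)]
    have : 0 ≤ (N : ℝ) * N := by positivity
    nlinarith
  obtain ⟨d, hd1, hd⟩ := diag_fintype hA (fun p : Fin N × Bool => a p.1)
    (fun p => by rw [ha]; exact hR _ (hF _)) hε0
  obtain ⟨z, hz⟩ : ∃ z : Bool → Fin N → A, ∀ i k, z i k = a k * d (k, i) := ⟨_, fun _ _ => rfl⟩
  have hzz : ∀ i, ∀ k m, ‖star (z i k) * z i m - (if k = m then star (a k) * a k else 0)‖ ≤ ε := by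
    intro i k m
    have h1 := (hd (k, i) (m, i)).le
    simp only [Prod.mk.injEq, and_true] at h1
    rw [hz, hz]
    exact h1
  have hzo : ∀ k m, ‖star (z true k) * z false m - (if k = m then (0 : A) else 0)‖ ≤ ε := by
    intro k m
    have h1 := (hd (k, true) (m, false)).le
    simp only [Prod.mk.injEq, Bool.true_eq_false, and_false, if_false] at h1
    rw [hz, hz, ite_self]
    exact h1
  obtain ⟨S, hS⟩ : ∃ S : Bool → A, ∀ i, S i = ∑ k, (1 : ℝ) • z i k := ⟨_, fun _ => rfl⟩
  have hsum1 : ∑ _k : Fin N, |(1 : ℝ)| = N := by simp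
  -- the inner products of the `a k`
  have haa : ∀ k, star (a k) * a k = star e * Lf h (fun t => F k t * F k t) e := fun k => by
    rw [ha, star_Lf_mul_Lf hh (hF k) (hF k)]
  have hsumaa : ∑ k, ((1 : ℝ) * 1) • (star (a k) * a k) = star e * e := by
    have h1 : ∀ k, ((1 : ℝ) * 1) • (star (a k) * a k) =
        star e * Lf h (fun t => F k t * F k t) e := fun k => by rw [mul_one, one_smul, haa]
    rw [Finset.sum_congr rfl fun k _ => h1 k, ← Finset.mul_sum,
      sum_Lf _ hh (f := fun k t => F k t * F k t) (fun k => (hF k).mul (hF k)),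
      Lf_congr hh (f := fun t => ∑ k, F k t * F k t) (g := fun _ => 1)
        (continuous_finsetSum _ fun k _ => (hF k).mul (hF k))
        continuous_const fun t ht => hFs t ht, Lf_one]
  have hSS : ∀ i, ‖star (S i) * S i - star e * e‖ ≤ η / 2 := by
    intro i
    have h1 := weights (hzz i) (fun _ => 1) (fun _ => 1)
    rw [hsumaa, hsum1, ← hS] at h1
    exact h1.trans hNε
  have hSn : ∀ i, ‖S i‖ ≤ 2 := by
    intro i
    have h1 : ‖star (S i) * S i‖ ≤ 2 := by
      calc ‖star (S i) * S i‖ = ‖(star (S i) * S i - star e * e) + star e * e‖ := by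
            rw [sub_add_cancel]
        _ ≤ η / 2 + 1 * 1 := by
            refine (norm_add_le _ _).trans (add_le_add (hSS i) ?_)
            refine (norm_mul_le _ _).trans ?_
            rw [norm_star]
            gcongr
        _ ≤ 2 := by linarith
    rw [CStarRing.norm_star_mul_self] at h1
    nlinarith [norm_nonneg (S i)]
  -- the colours
  obtain ⟨χ, hχ⟩ : ∃ χ : Fin 4 → Fin N → ℝ, ∀ r k, χ r k = if c k = r then 1 else 0 :=
    ⟨_, fun _ _ => rfl⟩
  have hχ0 : ∀ r k, 0 ≤ χ r k := fun r k => by rw [hχ]; split_ifs <;> norm_num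
  have hχ1 : ∀ r k, χ r k ≤ 1 := fun r k => by rw [hχ]; split_ifs <;> norm_num
  obtain ⟨W, hW⟩ : ∃ W : Fin 4 → Bool → A, ∀ r i, W r i = ∑ k, χ r k • z i k :=
    ⟨_, fun _ _ => rfl⟩
  have hWn : ∀ r i, ‖W r i‖ ≤ 2 := by
    intro r i
    have h1 := weights (hzz i) (χ r) (χ r)
    have h2 : ∑ k, |χ r k| ≤ N := by
      calc ∑ k, |χ r k| ≤ ∑ _k : Fin N, (1 : ℝ) :=
            Finset.sum_le_sum fun k _ => by rw [abs_of_nonneg (hχ0 r k)]; exact hχ1 r k
        _ = N := by simp
    have h3 : (∑ k, |χ r k|) * (∑ k, |χ r k|) * ε ≤ η / 2 := by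
      refine le_trans ?_ hNε
      have : 0 ≤ ∑ k, |χ r k| := Finset.sum_nonneg fun _ _ => abs_nonneg _
      gcongr
    have h4 : ∑ k, (χ r k * χ r k) • (star (a k) * a k) =
        star e * Lf h (fun t => ∑ k, (χ r k * χ r k) * (F k t * F k t)) e := by
      rw [← sum_Lf Finset.univ hh (f := fun k t => (χ r k * χ r k) * (F k t * F k t))
        (fun k => continuous_const.mul ((hF k).mul (hF k))), Finset.mul_sum]
      refine Finset.sum_congr rfl fun k _ => ?_
      rw [haa, Lf_smul_fun (f := fun t => F k t * F k t) hh _ ((hF k).mul (hF k)), mul_smul_comm]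
    have h5 : ‖Lf h (fun t => ∑ k, (χ r k * χ r k) * (F k t * F k t)) e‖ ≤ 1 := by
      have hc : Continuous fun t => ∑ k, (χ r k * χ r k) * (F k t * F k t) :=
        continuous_finsetSum _ fun k _ => continuous_const.mul ((hF k).mul (hF k))
      have hc' : Continuous fun t => min 1 (∑ k, (χ r k * χ r k) * (F k t * F k t)) :=
        continuous_const.min hc
      have h0 : ∀ t, 0 ≤ ∑ k, (χ r k * χ r k) * (F k t * F k t) := fun t =>
        Finset.sum_nonneg fun k _ => mul_nonneg (mul_self_nonneg _) (mul_self_nonneg _)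
      rw [Lf_congr hh hc hc' (fun t ht => by
        rw [min_eq_right]
        rw [← hFs t ht]
        refine Finset.sum_le_sum fun k _ => ?_
        have e1 : χ r k * χ r k ≤ 1 := by
          have := hχ1 r k
          have := hχ0 r k
          nlinarith
        have e2 := mul_self_nonneg (F k t)
        nlinarith)]
      refine (norm_Lf_le hh hc' zero_le_one (fun t => ?_) e).trans (by linarith)
      rw [abs_of_nonneg (le_min zero_le_one (h0 t))]
      exact min_le_left _ _
    have h6 : ‖star (W r i) * W r i‖ ≤ 2 := by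
      rw [← hW] at h1
      calc ‖star (W r i) * W r i‖ = ‖(star (W r i) * W r i -
            ∑ k, (χ r k * χ r k) • (star (a k) * a k)) +
            ∑ k, (χ r k * χ r k) • (star (a k) * a k)‖ := by rw [sub_add_cancel]
        _ ≤ η / 2 + 1 * 1 := by
            refine (norm_add_le _ _).trans (add_le_add (h1.trans h3) ?_)
            rw [h4]
            refine (norm_mul_le _ _).trans ?_
            rw [norm_star]
            gcongr
        _ ≤ 2 := by linarith
    rw [CStarRing.norm_star_mul_self] at h6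
    nlinarith [norm_nonneg (W r i)]
  -- multiplication by `h`
  have hhS : ∀ i, h * S i = (∑ k, l k • z i k) + ∑ r, Lf h (G r) (W r i) := by
    intro i
    have h1 : ∀ k, h * z i k = l k • z i k + Lf h (G (c k)) (z i k) := by
      intro k
      have h2 : h * a k = l k • a k + Lf h (G (c k)) (a k) := by
        rw [ha, ← Lf_id hh, Lf_Lf (f := fun t => t) hh continuous_id (hF k), Lf_Lf hh (hG _) (hF k),
          ← Lf_smul_fun hh _ (hF k),
          ← Lf_add_fun (f := fun t => l k * F k t) (g := fun t => G (c k) t * F k t) hh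
            (continuous_const.mul (hF k)) ((hG _).mul (hF k))]
        congr 1
        funext t
        exact hFl k t
      rw [hz, ← mul_assoc, h2, add_mul, smul_mul_assoc, Lf_mul]
    have h2 : ∀ r, Lf h (G r) (W r i) = ∑ k, χ r k • Lf h (G r) (z i k) := by
      intro r
      rw [hW, Lf_sum]
      exact Finset.sum_congr rfl fun k _ => Lf_smul _ _ _ _
    rw [hS, Finset.mul_sum, Finset.sum_congr rfl fun r _ => h2 r, Finset.sum_comm,
      ← Finset.sum_add_distrib]
    refine Finset.sum_congr rfl fun k _ => ?_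
    rw [one_smul, h1]
    congr 1
    rw [Finset.sum_eq_single (c k)]
    · rw [hχ, if_pos rfl, one_smul]
    · intro r _ hr
      rw [hχ, if_neg (Ne.symm hr), zero_smul]
    · intro h; exact absurd (Finset.mem_univ _) h
  refine ⟨S, ∑ k, (1 * l k) • (star (a k) * a k), fun i => ?_, fun i => (hSS i).trans (by linarith),
    ?_, fun i => ?_⟩
  · rw [hS]
    refine RI.sum _ fun k _ => ?_
    rw [one_smul, hz, ha]
    exact RI.mul (Her.mem_RI (her_Lf hh hhb (hF k) heb)) _
  · have h1 := weights hzo (fun _ => 1) (fun _ => 1)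
    rw [hsum1, ← hS, ← hS] at h1
    simp only [smul_zero, Finset.sum_const_zero, sub_zero] at h1
    exact h1.trans (hNε.trans (by linarith))
  · have h1 := weights (hzz i) (fun _ => 1) l
    rw [hsum1, ← hS, ← hL] at h1
    have h2 : ‖star (S i) * ∑ r, Lf h (G r) (W r i)‖ ≤ η / 2 := by
      have h3 : ‖∑ r, Lf h (G r) (W r i)‖ ≤ ∑ _r : Fin 4, η / 32 * 2 := by
        refine norm_sum_le_of_le _ fun r _ => ?_
        refine (norm_Lf_le hh (hG r) (by positivity) (hGm r) _).trans ?_
        gcongr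
        exact hWn r i
      calc _ ≤ ‖S i‖ * ‖∑ r, Lf h (G r) (W r i)‖ := by
            refine (norm_mul_le _ _).trans ?_
            rw [norm_star]
        _ ≤ 2 * ∑ _r : Fin 4, η / 32 * 2 := by
            gcongr
            exact hSn i
        _ = η / 2 := by
            rw [Finset.sum_const, Finset.card_univ, Fintype.card_fin]
            simp only [nsmul_eq_mul]
            push_cast
            ring
    rw [hhS, mul_add]
    calc _ = ‖(star (S i) * (∑ k, l k • z i k) - ∑ k, (1 * l k) • (star (a k) * a k)) +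
          star (S i) * ∑ r, Lf h (G r) (W r i)‖ := by congr 1; abel
      _ ≤ η / 2 + η / 2 := (norm_add_le _ _).trans (add_le_add (h1.trans hLε) h2)
      _ = η := by ring

theorem exists_pair (hA : Diag A) {b h e : A} (hh : IsSelfAdjoint h) (hhb : h ∈ her b)
    (heb : e ∈ her b) (he1 : ‖e‖ ≤ 1) {η : ℝ} (hη : 0 < η) (hη1 : η ≤ 1) :
    ∃ (S : Bool → A) (g : A), (∀ i, S i ∈ RI b) ∧ (∀ i, ‖star (S i) * S i - star e * e‖ ≤ η) ∧
      ‖star (S true) * S false‖ ≤ η ∧ ∀ i, ‖star (S i) * (h * S i) - g‖ ≤ η :=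
  exists_pair_on (DiagOn.of_diag hA) (fun _ _ => Set.mem_univ _) hh hhb heb he1 hη hη1

end

end Vale.Agent.P133.H294
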