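import Vale.Agent.P133.H294.Cover
import Mathlib.Topology.Bases

/-!
P133 (helper294): countably many purely infinite subquotients.
-/

open scoped ComplexOrder CStarAlgebra

namespace Vale.Agent.P133.H294

open Vale.Agent.P133 Vale.Agent.P133.Statement Vale.Agent.P133.H832 Vale.Agent.P133F
  Vale.Agent.P133.H681 Vale.Agent.P133.R2 Vale.Agent.P133.R2.H28 Vale.Agent.P133.R2.H474

universe u

/-- The subquotient `K / (J ∩ K)` is purely infinite. -/
def PiSub {A : Type u} [NonUnitalCStarAlgebra A] (J K : Submodule ℂ A) : Prop :=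
  ∃ (D C : Type u) (_ : NonUnitalCStarAlgebra D) (_ : NonUnitalCStarAlgebra C)
    (_ : PartialOrder C) (_ : StarOrderedRing C) (ι : D →⋆ₙₐ[ℂ] A) (ρ : D →⋆ₙₐ[ℂ] C),
    Function.Injective ι ∧ (∀ x, x ∈ K ↔ ∃ d, ι d = x) ∧ Function.Surjective ρ ∧
      (∀ d, ρ d = 0 ↔ ι d ∈ J) ∧ PurelyInfinite C

section

variable {A : Type u} [NonUnitalCStarAlgebra A] [PartialOrder A] [StarOrderedRing A]

omit [PartialOrder A] [StarOrderedRing A] in
/-- diagonalisation in the image of a closed ideal with purely infinite image -/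
theorem PiSub.diagOn {J K : Submodule ℂ A} (h : PiSub J K) {B : Type u}
    [NonUnitalCStarAlgebra B] (φ : A →⋆ₙₐ[ℂ] B) (hk : ∀ z, φ z = 0 ↔ z ∈ J) :
    DiagOn (φ '' (K : Set A)) := by
  obtain ⟨D, C, i1, i2, i3, i4, ι, ρ, hι, hK, hρ, hρk, hC⟩ := h
  intro n a ε ha hε
  have h1 : ∀ i, ∃ x : D, φ (ι x) = a i := fun i => by
    obtain ⟨y, hy, hya⟩ := ha i
    obtain ⟨d, rfl⟩ := (hK y).1 hy
    exact ⟨d, hya⟩
  choose x hx using h1
  obtain ⟨d, hd1, hd⟩ := diag_of_eltPI C (eltPI_of C hC) n (fun i => ρ (x i)) ε hε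
  choose y hy using fun i => hρ (d i)
  have hn : ∀ z : D, ‖φ (ι z)‖ ≤ ‖ρ z‖ := fun z => by
    have := norm_le_of_ker ρ (φ.comp ι) (fun w hw => by
      show φ (ι w) = 0
      exact (hk _).2 ((hρk w).1 hw)) z
    exact this
  refine ⟨fun i => φ (ι (y i)), fun i => (hn _).trans (by rw [hy]; exact hd1 i), fun i j => ?_⟩
  have h2 : star (a i * φ (ι (y i))) * (a j * φ (ι (y j))) -
      (if i = j then star (a i) * a i else 0) =
      φ (ι (star (x i * y i) * (x j * y j) - (if i = j then star (x i) * x i else 0))) := by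
    rw [← hx i, ← hx j]
    split_ifs <;> simp only [map_sub, map_mul, map_star, map_zero]
  rw [h2]
  refine (hn _).trans_lt ?_
  have h3 : ρ (star (x i * y i) * (x j * y j) - (if i = j then star (x i) * x i else 0)) =
      star (ρ (x i) * d i) * (ρ (x j) * d j) - (if i = j then star (ρ (x i)) * ρ (x i) else 0) := by
    rw [← hy i, ← hy j]
    split_ifs <;> simp only [map_sub, map_mul, map_star, map_zero]
  rw [h3]
  exact hd i j

omit [PartialOrder A] [StarOrderedRing A] in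
/-- a closed ideal is stable under the functional calculus -/
theorem cfc_mem_ideal {K : Submodule ℂ A} (hK : IsClosedIdeal K) {z : A} (hz : IsSelfAdjoint z)
    (hzK : z ∈ K) {f : ℝ → ℝ} (hf : Continuous f) (hf0 : f 0 = 0) : cfcₙ f z ∈ K := by
  have h1 := her_cfc hz (self_mem_her hz) hf hf0
  have h2 : closure (Set.range fun w => z * w * z) ⊆ (K : Set A) := by
    refine closure_minimal ?_ hK.1
    rintro _ ⟨w, rfl⟩
    exact (hK.2 _ _ (hK.2 _ _ hzK).2).2
  exact h2 h1

/-- a unit for a cut-down of an element of a hereditary subalgebra -/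
theorem exists_unit' {a z : A} (hz : 0 ≤ z) (hza : z ∈ her a) {K : Submodule ℂ A}
    (hK : IsClosedIdeal K) (hzK : z ∈ K) {δ : ℝ} (hδ : 0 < δ) : ∃ e : A, IsSelfAdjoint e ∧
    e ∈ her a ∧ e ∈ K ∧ ‖e‖ ≤ 1 ∧ e * R2.H28.cut z δ = R2.H28.cut z δ := by
  have hf : Continuous (fun t : ℝ => max 0 (min 1 (t / δ))) := by fun_prop
  have hf0 : (fun t : ℝ => max 0 (min 1 (t / δ))) 0 = 0 := by simp
  have hg : Continuous (fun t : ℝ => max (t - δ) 0) := by fun_prop
  have hg0 : (fun t : ℝ => max (t - δ) 0) 0 = 0 := by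
    simp only [zero_sub]; exact max_eq_right (by linarith)
  have hzs := IsSelfAdjoint.of_nonneg hz
  refine ⟨cfcₙ (fun t : ℝ => max 0 (min 1 (t / δ))) z, cfcₙ_predicate _ z,
    her_cfc hzs hza hf hf0, cfc_mem_ideal hK hzs hzK hf hf0, norm_cfcₙ_le fun t _ => ?_, ?_⟩
  · rw [Real.norm_of_nonneg (le_max_left _ _)]
    exact max_le zero_le_one (min_le_left _ _)
  · rw [R2.H28.cut, ← cfcₙ_mul _ _ z hf.continuousOn hf0 hg.continuousOn hg0]
    congr 1
    funext t
    rcases le_total δ t with h | h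
    · have h1 : 1 ≤ t / δ := (one_le_div hδ).2 h
      rw [min_eq_left h1, max_eq_right zero_le_one, one_mul]
    · rw [max_eq_right (show t - δ ≤ 0 by linarith), mul_zero]

/-- **Countably many purely infinite subquotients.** -/
theorem eltPI_of_pieces {n : ℕ} (hn : WPI A n)
    (H : ∀ a : A, 0 ≤ a → ∀ δ : ℝ, 0 < δ → ∃ (J K : ℕ → Submodule ℂ A) (z : ℕ → A),
      (∀ k, IsClosedIdeal (J k)) ∧ (∀ k, IsClosedIdeal (K k)) ∧ (∀ k, 0 ≤ z k) ∧
      (∀ k, z k ∈ her a) ∧ (∀ k, z k ∈ K k) ∧ (∀ k, PiSub (J k) (K k)) ∧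
      ∀ P : Submodule ℂ A, IsClosedIdeal P → R2.H28.cut a δ ∉ P →
        ∃ k, z k ∉ (P ⊔ J k).topologicalClosure) :
    EltPI A := by
  refine eltPI_of A (pi_of_twoOrth hn (twoOrth_iff.2 fun a ha δ hδ => ?_))
  obtain ⟨J, K, z, hJ, hK, hz0, hza, hzK, hpi, hP⟩ := H a ha δ hδ
  choose B i1 i2 i3 φ hφ hk using fun k => (hJ k).quot
  have hm : ∀ m : ℕ, (0 : ℝ) < 1 / ((m : ℝ) + 1) := fun m => by positivity
  choose e he hea heK he1 hec using fun p : ℕ × ℕ =>
    exists_unit' (hz0 p.1) (hza p.1) (hK p.1) (hzK p.1) (hm p.2)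
  have hcl : IsClosed {h : A | IsSelfAdjoint h ∧ h ∈ her a} := by
    refine IsClosed.inter ?_ (her_closed a)
    exact isClosed_eq continuous_star continuous_id
  have : CompleteSpace {h : A | IsSelfAdjoint h ∧ h ∈ her a} := hcl.completeSpace_coe
  have hne : Nonempty {h : A | IsSelfAdjoint h ∧ h ∈ her a} :=
    ⟨⟨0, IsSelfAdjoint.zero A, (her a).zero_mem⟩⟩
  have hd : Dense (⋂ p : ℕ × ℕ,
      {h : {h : A | IsSelfAdjoint h ∧ h ∈ her a} | Good (φ p.1) a (e p) h.1}) := by
    refine dense_iInter_of_isOpen (fun p => (isOpen_good (φ p.1) a (e p)).preimage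
      continuous_subtype_val) fun p => ?_
    rw [Metric.dense_iff]
    intro x ε hε
    obtain ⟨h', h1, h2, h3, h4⟩ := dense_good_on (φ p.1) (hφ p.1) ((hpi p.1).diagOn (φ p.1) (hk p.1))
      (e := e p) (h := x.1) (fun f hf => by
        obtain ⟨y, hy⟩ := hφ p.1 (cfcₙ (fun s => f s - f 0) (φ p.1 x.1))
        refine ⟨((f 0 : ℝ) : ℂ) • e p + y * e p, (K p.1).add_mem ((K p.1).smul_mem _ (heK p))
          ((hK p.1).2 _ _ (heK p)).1, ?_⟩
        rw [map_add, map_smul, map_mul, hy, Complex.coe_smul, Lf]) ha (he p) (hea p) (he1 p)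
      x.2.1 x.2.2 hε
    exact ⟨⟨h', h1, h2⟩, by
      rw [Metric.mem_ball, Subtype.dist_eq, dist_eq_norm]; exact h3, h4⟩
  obtain ⟨⟨h, hh, hha⟩, hg⟩ := hd.nonempty
  refine ⟨h, hh, hha, fun P hPc hcP l => ?_⟩
  obtain ⟨k, hk'⟩ := hP P hPc hcP
  obtain ⟨m, hm'⟩ : ∃ m : ℕ, R2.H28.cut (z k) (1 / ((m : ℝ) + 1)) ∉
      (P ⊔ J k).topologicalClosure := by
    by_contra hno
    push Not at hno
    refine hk' ?_
    have hcl' : IsClosed (((P ⊔ J k).topologicalClosure : Submodule ℂ A) : Set A) :=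
      Submodule.isClosed_topologicalClosure _
    have h1 : z k ∈ closure (((P ⊔ J k).topologicalClosure : Submodule ℂ A) : Set A) := by
      rw [Metric.mem_closure_iff]
      intro ε hε
      obtain ⟨m, hm'⟩ := exists_nat_one_div_lt hε
      refine ⟨_, hno m, ?_⟩
      rw [dist_comm, dist_eq_norm]
      exact (norm_cut_sub_le (hz0 k) (hm m)).trans_lt hm'
    rwa [hcl'.closure_eq] at h1
  exact not_scalar_of_good (hJ k) (hk k) (hea (k, m)) (hec (k, m))
    (Set.mem_iInter.1 hg (k, m)) hPc hm' l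

/-- **Countably many purely infinite subquotients, separable algebras.** Let `A` be separable and
let `K k / J k` be countably many purely infinite subquotients, such that for every closed ideal
`P` and every `x` outside `P` some `x * K k` is not contained in the closure of `P + J k` (every
nonempty locally closed subset of the primitive ideal space meets one of the corresponding locally
closed subsets). Then `A` is purely infinite if it is weakly so. -/
theorem eltPI_of_subquotients [TopologicalSpace.SeparableSpace A] {n : ℕ} (hn : WPI A n)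
    {J K : ℕ → Submodule ℂ A} (hJ : ∀ k, IsClosedIdeal (J k)) (hK : ∀ k, IsClosedIdeal (K k))
    (hpi : ∀ k, PiSub (J k) (K k))
    (hP : ∀ P : Submodule ℂ A, IsClosedIdeal P → ∀ x : A, x ∉ P →
      ∃ (k : ℕ) (y : A), y ∈ K k ∧ x * y ∉ (P ⊔ J k).topologicalClosure) : EltPI A := by
  refine eltPI_of_pieces hn fun a ha δ hδ => ?_
  have hZ : ∀ k, ∃ z : ℕ → A, (∀ j, 0 ≤ z j ∧ z j ∈ her a ∧ z j ∈ K k) ∧
      ∀ x : A, 0 ≤ x → x ∈ her a → x ∈ K k → ∀ ε > 0, ∃ j, ‖z j - x‖ < ε := by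
    intro k
    have hne : Nonempty {x : A | 0 ≤ x ∧ x ∈ her a ∧ x ∈ K k} :=
      ⟨⟨0, le_rfl, (her a).zero_mem, (K k).zero_mem⟩⟩
    have : TopologicalSpace.SeparableSpace {x : A | 0 ≤ x ∧ x ∈ her a ∧ x ∈ K k} := by
      infer_instance
    refine ⟨fun j => (TopologicalSpace.denseSeq {x : A | 0 ≤ x ∧ x ∈ her a ∧ x ∈ K k} j).1,
      fun j => (TopologicalSpace.denseSeq {x : A | 0 ≤ x ∧ x ∈ her a ∧ x ∈ K k} j).2,
      fun x hx0 hxa hxK ε hε => ?_⟩
    obtain ⟨j, hj⟩ := (TopologicalSpace.denseRange_denseSeq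
      {x : A | 0 ≤ x ∧ x ∈ her a ∧ x ∈ K k}).exists_dist_lt ⟨x, hx0, hxa, hxK⟩ hε
    refine ⟨j, ?_⟩
    rw [← dist_eq_norm, dist_comm]
    exact hj
  choose z hz hzd using hZ
  refine ⟨fun m => J m.unpair.1, fun m => K m.unpair.1, fun m => z m.unpair.1 m.unpair.2,
    fun m => hJ _, fun m => hK _, fun m => (hz _ _).1, fun m => (hz _ _).2.1,
    fun m => (hz _ _).2.2, fun m => hpi _, fun P hPc hc => ?_⟩
  obtain ⟨k, y, hyK, hxy⟩ := hP P hPc _ hc
  have hP' := isClosedIdeal_sup' hPc (hJ k)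
  have hca : R2.H28.cut a δ ∈ her a := by
    have hf : Continuous (fun t : ℝ => max (t - δ) 0) := by fun_prop
    have hf0 : (fun t : ℝ => max (t - δ) 0) 0 = 0 := by
      simp only [zero_sub]; exact max_eq_right (by linarith)
    exact her_cfc (IsSelfAdjoint.of_nonneg ha) (self_mem_her (IsSelfAdjoint.of_nonneg ha)) hf hf0
  have hcs : star (R2.H28.cut a δ) = R2.H28.cut a δ :=
    (IsSelfAdjoint.of_nonneg (R2.H28.cut_nonneg a δ)).star_eq
  obtain ⟨w, hw⟩ : ∃ w : A, w = (R2.H28.cut a δ * y) * star (R2.H28.cut a δ * y) := ⟨_, rfl⟩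
  have hw0 : 0 ≤ w := by rw [hw]; exact mul_star_self_nonneg _
  have hwa : w ∈ her a := by
    have h1 : w = R2.H28.cut a δ * (y * star y) * R2.H28.cut a δ := by
      rw [hw, star_mul, hcs]; simp only [mul_assoc]
    rw [h1]
    exact her_mid hca _ hca
  have hwK : w ∈ K k := by
    rw [hw]
    exact ((hK k).2 _ _ ((hK k).2 _ _ hyK).1).2
  have hwP : w ∉ (P ⊔ J k).topologicalClosure := by
    intro h
    refine hxy ?_
    have h1 := hP'.of_star_mul_self (x := star (R2.H28.cut a δ * y)) (by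
      rw [star_star, ← hw]; exact h)
    have h2 := hP'.star_mem h1
    rwa [star_star] at h2
  by_contra hno
  push Not at hno
  refine hwP ?_
  have h1 : w ∈ closure (((P ⊔ J k).topologicalClosure : Submodule ℂ A) : Set A) := by
    rw [Metric.mem_closure_iff]
    intro ε hε
    obtain ⟨j, hj⟩ := hzd k w hw0 hwa hwK ε hε
    refine ⟨z k j, ?_, ?_⟩
    · have h2 := hno (Nat.pair k j)
      simp only [Nat.unpair_pair] at h2
      exact h2
    · rw [dist_comm, dist_eq_norm]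
      exact hj
  rwa [(Submodule.isClosed_topologicalClosure _).closure_eq] at h1

end

end Vale.Agent.P133.H294
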