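import Vale.Agent.P133.H294.Dens

/-!
P133 (helper294): density of the elements which are nowhere scalar modulo a closed ideal with
purely infinite quotient.
-/

open scoped ComplexOrder CStarAlgebra

namespace Vale.Agent.P133.H294

open Vale.Agent.P133 Vale.Agent.P133.Statement Vale.Agent.P133.H832 Vale.Agent.P133F
  Vale.Agent.P133.H681 Vale.Agent.P133.R2 Vale.Agent.P133.R2.H28 Vale.Agent.P133.R2.H474

universe u

section

variable {A : Type u} [NonUnitalCStarAlgebra A]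

theorem exists_pair_mul {R : Set A} (hA : DiagOn R) {b h e : A}
    (hR : ∀ f : ℝ → ℝ, Continuous f → Lf h f e ∈ R) (hh : IsSelfAdjoint h) (hhb : h ∈ her b)
    (heb : e ∈ her b) (he1 : ‖e‖ ≤ 1) {κ : ℝ} (hκ : 0 < κ) (hκ1 : κ ≤ 1) :
    ∃ v w g : A, ‖star (b * v) * (b * v) - star e * e‖ < κ ∧
      ‖star (b * w) * (b * w) - star e * e‖ < κ ∧ ‖star (b * v) * (b * w)‖ < κ ∧
      ‖star (b * v) * (h * (b * v)) - g‖ < κ ∧ ‖star (b * w) * (h * (b * w)) - g‖ < κ := by
  obtain ⟨S, g, h1, h2, h3, h4⟩ := exists_pair_on hA hR hh hhb heb he1 (η := κ / 2) (by positivity)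
    (by linarith)
  have hlt : κ / 2 < κ := by linarith
  have hmem : (S true, S false) ∈ closure ((Set.range fun w => b * w) ×ˢ
      (Set.range fun w => b * w)) := by
    rw [closure_prod_eq]
    exact ⟨h1 true, h1 false⟩
  have hO : IsOpen {p : A × A | ‖star p.1 * p.1 - star e * e‖ < κ ∧
      ‖star p.2 * p.2 - star e * e‖ < κ ∧ ‖star p.1 * p.2‖ < κ ∧
      ‖star p.1 * (h * p.1) - g‖ < κ ∧ ‖star p.2 * (h * p.2) - g‖ < κ} := by
    have c1 : Continuous fun p : A × A => ‖star p.1 * p.1 - star e * e‖ := by fun_prop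
    have c2 : Continuous fun p : A × A => ‖star p.2 * p.2 - star e * e‖ := by fun_prop
    have c3 : Continuous fun p : A × A => ‖star p.1 * p.2‖ := by fun_prop
    have c4 : Continuous fun p : A × A => ‖star p.1 * (h * p.1) - g‖ := by fun_prop
    have c5 : Continuous fun p : A × A => ‖star p.2 * (h * p.2) - g‖ := by fun_prop
    exact (isOpen_lt c1 continuous_const).inter ((isOpen_lt c2 continuous_const).inter
      ((isOpen_lt c3 continuous_const).inter ((isOpen_lt c4 continuous_const).inter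
      (isOpen_lt c5 continuous_const))))
  obtain ⟨⟨x, y⟩, hxy, ⟨v, hv⟩, ⟨w, hw⟩⟩ := mem_closure_iff.1 hmem _ hO
    ⟨(h2 true).trans_lt hlt, (h2 false).trans_lt hlt, h3.trans_lt hlt, (h4 true).trans_lt hlt,
      (h4 false).trans_lt hlt⟩
  simp only at hv hw
  subst hv
  subst hw
  exact ⟨v, w, g, hxy⟩

end

section

variable {A : Type u} [NonUnitalCStarAlgebra A] [PartialOrder A] [StarOrderedRing A]
  {B : Type u} [NonUnitalCStarAlgebra B] [PartialOrder B] [StarOrderedRing B]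

omit [PartialOrder A] [StarOrderedRing A] [PartialOrder B] [StarOrderedRing B] in
theorem her_map (φ : A →⋆ₙₐ[ℂ] B) {a x : A} (hx : x ∈ her a) : φ x ∈ her (φ a) := by
  refine map_mem_closure (f := φ) (map_continuous φ) hx ?_
  rintro _ ⟨w, rfl⟩
  exact ⟨φ w, by simp only [map_mul]⟩

omit [PartialOrder A] [StarOrderedRing A] [PartialOrder B] [StarOrderedRing B] in
theorem map_selfAdjoint (φ : A →⋆ₙₐ[ℂ] B) {x : A} (hx : IsSelfAdjoint x) :
    IsSelfAdjoint (φ x) := by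
  rw [IsSelfAdjoint, ← map_star, hx.star_eq]

/-- `h` is robustly not scalar where `e` lives, modulo the kernel of `φ` -/
def Good (φ : A →⋆ₙₐ[ℂ] B) (a e h : A) : Prop :=
  ∃ (r : ℝ) (s t : A), s ∈ RI a ∧ t ∈ RI a ∧
    ‖φ (star s * (h * s) - star t * (h * t) - r • (e * e * (e * e)))‖ +
      ‖h‖ * ‖φ (star s * s - star t * t)‖ < r

/-- bounded self-adjoint lifts in hereditary subalgebras -/
theorem exists_trunc (φ : A →⋆ₙₐ[ℂ] B) {a z : A} (hz0 : 0 ≤ z) (hza : z ∈ her a)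
    (hn : ‖φ z‖ ≤ 4) : ∃ y : A, 0 ≤ y ∧ y ∈ her a ∧ ‖y‖ ≤ 4 ∧ φ y = φ z := by
  have hf : Continuous (fun t : ℝ => max 0 (min t 4)) := by fun_prop
  have hf0 : (fun t : ℝ => max 0 (min t 4)) 0 = 0 := by simp
  have hzs := IsSelfAdjoint.of_nonneg hz0
  have hφz := Vale.Agent.P133.R2.H28.map_nonneg' φ hz0
  refine ⟨cfcₙ (fun t : ℝ => max 0 (min t 4)) z, cfcₙ_nonneg fun _ _ => le_max_left _ _,
    her_cfc hzs hza hf hf0, norm_cfcₙ_le fun t _ => ?_, ?_⟩
  · rw [Real.norm_of_nonneg (le_max_left _ _)]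
    exact max_le (by norm_num) (min_le_right _ _)
  · rw [NonUnitalStarAlgHomClass.map_cfcₙ φ _ z (hf := hf.continuousOn) (hf₀ := hf0)
      (hφ := map_continuous φ) (ha := hzs) (hφa := IsSelfAdjoint.of_nonneg hφz)]
    conv_rhs => rw [← cfcₙ_id' ℝ (φ z)]
    refine cfcₙ_congr fun t ht => ?_
    have ht0 : 0 ≤ t := quasispectrum_nonneg_of_nonneg _ hφz t ht
    have h3 : ‖t‖ ≤ ‖φ z‖ := by
      have := norm_apply_le_norm_cfcₙ (fun x : ℝ => x) (φ z) ht
      rwa [cfcₙ_id' ℝ (φ z)] at this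
    have h4 : t ≤ 4 := (le_abs_self t).trans (h3.trans hn)
    rw [min_eq_left h4, max_eq_right ht0]

theorem dense_good_on (φ : A →⋆ₙₐ[ℂ] B) (hφ : Function.Surjective φ) {R : Set B} (hB : DiagOn R)
    {a e h : A} (hR : ∀ f : ℝ → ℝ, Continuous f → Lf (φ h) f (φ e) ∈ R) (ha : 0 ≤ a) (he : IsSelfAdjoint e) (hea : e ∈ her a) (he1 : ‖e‖ ≤ 1) (hh : IsSelfAdjoint h)
    (hha : h ∈ her a) {ε : ℝ} (hε : 0 < ε) :
    ∃ h' : A, IsSelfAdjoint h' ∧ h' ∈ her a ∧ ‖h' - h‖ < ε ∧ Good φ a e h' := by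
  have has : star a = a := (IsSelfAdjoint.of_nonneg ha).star_eq
  have hes : star e = e := he.star_eq
  obtain ⟨r, hr⟩ : ∃ r : ℝ, r = ε / 8 := ⟨_, rfl⟩
  have hr0 : 0 < r := by rw [hr]; positivity
  obtain ⟨D, hD⟩ : ∃ D : ℝ, D = 2 + 4 * r + 2 * (‖h‖ + ε) := ⟨_, rfl⟩
  have hD0 : 0 < D := by rw [hD]; positivity
  obtain ⟨κ, hκ⟩ : ∃ κ : ℝ, κ = min 1 (r / (2 * D)) := ⟨_, rfl⟩
  have hκ0 : 0 < κ := by rw [hκ]; exact lt_min one_pos (by positivity)
  have hκ1 : κ ≤ 1 := by rw [hκ]; exact min_le_left _ _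
  have hκD : κ * D < r := by
    have h1 : κ ≤ r / (2 * D) := by rw [hκ]; exact min_le_right _ _
    calc κ * D ≤ r / (2 * D) * D := by gcongr
      _ = r / 2 := by field_simp
      _ < r := by linarith
  obtain ⟨v, w, g, h1, h2, h3, h4, h5⟩ := exists_pair_mul hB hR (map_selfAdjoint φ hh)
    (her_map φ hha) (her_map φ hea) ((NonUnitalStarAlgHom.norm_apply_le φ e).trans he1) hκ0 hκ1
  obtain ⟨v, rfl⟩ := hφ v
  obtain ⟨w, rfl⟩ := hφ w
  obtain ⟨s, hs⟩ : ∃ s : A, s = a * v := ⟨_, rfl⟩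
  obtain ⟨t, ht⟩ : ∃ t : A, t = a * w := ⟨_, rfl⟩
  have hφs : φ a * φ v = φ s := by rw [hs, map_mul]
  have hφt : φ a * φ w = φ t := by rw [ht, map_mul]
  rw [hφs] at h1 h3 h4
  rw [hφt] at h2 h3 h5
  have hes' : star (φ e) = φ e := by rw [← map_star, hes]
  rw [hes'] at h1 h2
  obtain ⟨E, hE⟩ : ∃ E : B, E = φ e * φ e := ⟨_, rfl⟩
  rw [← hE] at h1 h2
  have hEn : ‖E‖ ≤ 1 := by
    rw [hE]
    have h6 := (NonUnitalStarAlgHom.norm_apply_le φ e).trans he1
    calc _ ≤ ‖φ e‖ * ‖φ e‖ := norm_mul_le _ _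
      _ ≤ 1 * 1 := by gcongr
      _ = 1 := one_mul 1
  obtain ⟨X, hX⟩ : ∃ X : B, X = star (φ s) * φ s := ⟨_, rfl⟩
  rw [← hX] at h1
  have hXn : ‖X‖ ≤ 2 := by
    calc ‖X‖ = ‖(X - E) + E‖ := by rw [sub_add_cancel]
      _ ≤ κ + 1 := (norm_add_le _ _).trans (add_le_add h1.le hEn)
      _ ≤ 2 := by linarith
  have hsn : ‖φ (s * star s)‖ ≤ 4 := by
    rw [map_mul, map_star, CStarRing.norm_self_mul_star, ← CStarRing.norm_star_mul_self, ← hX]
    linarith
  have hsa : s * star s ∈ her a := by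
    rw [hs, star_mul, has]
    have h6 : a * v * (star v * a) = a * (v * star v) * a := by simp only [mul_assoc]
    rw [h6]
    exact her_self _ _
  obtain ⟨Z, hZ0, hZa, hZn, hφZ⟩ := exists_trunc φ (mul_star_self_nonneg s) hsa hsn
  have hZs : IsSelfAdjoint Z := IsSelfAdjoint.of_nonneg hZ0
  have hrZ : r • Z = ((r : ℝ) : ℂ) • Z := (Complex.coe_smul r Z).symm
  refine ⟨h + r • Z, ?_, ?_, ?_, r, s, t, ?_, ?_, ?_⟩
  · rw [IsSelfAdjoint, star_add, star_smul, star_trivial (r : ℝ), hh.star_eq, hZs.star_eq]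
  · rw [hrZ]
    exact (her a).add_mem hha ((her a).smul_mem _ hZa)
  · rw [add_sub_cancel_left, norm_smul, Real.norm_of_nonneg hr0.le]
    calc r * ‖Z‖ ≤ r * 4 := by gcongr
      _ < ε := by rw [hr]; linarith
  · rw [hs]; exact RI.mul_self _ _
  · rw [ht]; exact RI.mul_self _ _
  · have e1 : φ (star s * ((h + r • Z) * s) - star t * ((h + r • Z) * t) -
        r • (e * e * (e * e))) =
        (star (φ s) * (φ h * φ s) - g) - (star (φ t) * (φ h * φ t) - g) +
        r • ((X - E) * X + E * (X - E)) - r • (star (star (φ s) * φ t) * (star (φ s) * φ t)) := by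
      have hm : ∀ x : A, φ (r • x) = r • φ x := fun x => by
        rw [← Complex.coe_smul, map_smul, Complex.coe_smul]
      simp only [map_sub, map_mul, map_add, map_star, hm, hφZ]
      rw [← hE, star_mul, star_star]
      have e2 : (X - E) * X + E * (X - E) = X * X - E * E := by
        rw [sub_mul, mul_sub]; abel
      rw [e2, hX]
      simp only [add_mul, mul_add, smul_mul_assoc, mul_smul_comm, mul_assoc, smul_sub]
      abel
    have n1 : ‖(X - E) * X + E * (X - E)‖ ≤ 3 * κ := by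
      calc _ ≤ κ * 2 + 1 * κ := by
            refine (norm_add_le _ _).trans (add_le_add ?_ ?_)
            · refine (norm_mul_le _ _).trans ?_
              gcongr
            · refine (norm_mul_le _ _).trans ?_
              gcongr
        _ = 3 * κ := by ring
    have n2 : ‖star (star (φ s) * φ t) * (star (φ s) * φ t)‖ ≤ κ := by
      rw [CStarRing.norm_star_mul_self]
      calc _ ≤ κ * 1 := by
            gcongr
            exact h3.le.trans hκ1
        _ = κ := mul_one κ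
    have n3 : ‖φ (star s * ((h + r • Z) * s) - star t * ((h + r • Z) * t) -
        r • (e * e * (e * e)))‖ ≤ κ + κ + r * (3 * κ) + r * κ := by
      rw [e1]
      refine (norm_sub_le _ _).trans (add_le_add ?_ ?_)
      · refine (norm_add_le _ _).trans (add_le_add ?_ ?_)
        · exact (norm_sub_le _ _).trans (add_le_add h4.le h5.le)
        · rw [norm_smul, Real.norm_of_nonneg hr0.le]
          gcongr
      · rw [norm_smul, Real.norm_of_nonneg hr0.le]
        gcongr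
    have n4 : ‖h + r • Z‖ ≤ ‖h‖ + ε := by
      refine (norm_add_le _ _).trans ?_
      rw [norm_smul, Real.norm_of_nonneg hr0.le]
      have : r * ‖Z‖ ≤ r * 4 := by gcongr
      rw [hr] at this ⊢
      linarith
    have n5 : ‖φ (star s * s - star t * t)‖ ≤ κ + κ := by
      have e3 : φ (star s * s - star t * t) = (X - E) - (star (φ t) * φ t - E) := by
        rw [map_sub, map_mul, map_mul, map_star, map_star, hX]; abel
      rw [e3]
      exact (norm_sub_le _ _).trans (add_le_add h1.le h2.le)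
    calc _ ≤ (κ + κ + r * (3 * κ) + r * κ) + (‖h‖ + ε) * (κ + κ) := by
          refine add_le_add n3 ?_
          gcongr
      _ = κ * D := by rw [hD]; ring
      _ < r := hκD

theorem dense_good (φ : A →⋆ₙₐ[ℂ] B) (hφ : Function.Surjective φ) (hB : Diag B) {a e h : A}
    (ha : 0 ≤ a) (he : IsSelfAdjoint e) (hea : e ∈ her a) (he1 : ‖e‖ ≤ 1) (hh : IsSelfAdjoint h)
    (hha : h ∈ her a) {ε : ℝ} (hε : 0 < ε) :
    ∃ h' : A, IsSelfAdjoint h' ∧ h' ∈ her a ∧ ‖h' - h‖ < ε ∧ Good φ a e h' :=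
  dense_good_on φ hφ (DiagOn.of_diag hB) (fun _ _ => Set.mem_univ _) ha he hea he1 hh hha hε

end

end Vale.Agent.P133.H294
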