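import Mathlib.Analysis.SpecialFunctions.Trigonometric.Inverse
import Mathlib.Algebra.BigOperators.Intervals

/-!
P133 (helper294): fine partitions of unity on the line, with four colours.
-/

namespace Vale.Agent.P133.H294

/-- a clamp -/
noncomputable def cl (j s : ℝ) : ℝ := min 1 (max 0 (s - j))

theorem cl_cont (j : ℝ) : Continuous (cl j) := by unfold cl; fun_prop

theorem cl_zero {j s : ℝ} (h : s ≤ j) : cl j s = 0 := by
  unfold cl
  rw [max_eq_left (by linarith), min_eq_right zero_le_one]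

theorem cl_one {j s : ℝ} (h : j + 1 ≤ s) : cl j s = 1 := by
  unfold cl
  exact min_eq_left (le_trans (by linarith) (le_max_right _ _))

/-- the tent of height one over `[k - 1, k + 1]` -/
noncomputable def tent (k s : ℝ) : ℝ := cl (k - 1) s - cl k s

theorem tent_cont (k : ℝ) : Continuous (tent k) := (cl_cont _).sub (cl_cont _)

theorem tent_nonneg (k s : ℝ) : 0 ≤ tent k s := by
  unfold tent cl
  exact sub_nonneg.2 (min_le_min_left _ (max_le_max_left _ (by linarith)))

theorem tent_eq_zero {k s : ℝ} (h : 1 ≤ |s - k|) : tent k s = 0 := by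
  unfold tent
  rcases le_abs.1 h with h | h
  · rw [cl_one (by linarith), cl_one (by linarith), sub_self]
  · rw [cl_zero (by linarith), cl_zero (by linarith), sub_self]

theorem tent_sum (N : ℕ) {s : ℝ} (h0 : 0 ≤ s) (hN : s ≤ N) :
    ∑ k : Fin (N + 1), tent (k : ℕ) s = 1 := by
  have h1 : ∑ k : Fin (N + 1), tent (k : ℕ) s = ∑ k ∈ Finset.range (N + 1), tent (k : ℕ) s :=
    (Finset.sum_range fun k : ℕ => tent k s).symm
  have h2 : ∀ k : ℕ, tent k s = (fun j : ℕ => cl ((j : ℝ) - 1) s) k -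
      (fun j : ℕ => cl ((j : ℝ) - 1) s) (k + 1) := by
    intro k
    simp only [tent, Nat.cast_add, Nat.cast_one, add_sub_cancel_right]
  rw [h1, Finset.sum_congr rfl fun k _ => h2 k, Finset.sum_range_sub']
  simp only [Nat.cast_zero, zero_sub, Nat.cast_add, Nat.cast_one, add_sub_cancel_right]
  rw [cl_one (by linarith), cl_zero hN, sub_zero]

/-- a triangle wave of period four -/
noncomputable def wave (r s : ℝ) : ℝ := 2 / Real.pi * Real.arcsin (Real.sin (Real.pi / 2 * (s - r)))

theorem wave_cont (r : ℝ) : Continuous (wave r) := by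
  unfold wave
  exact continuous_const.mul (Real.continuous_arcsin.comp (Real.continuous_sin.comp (by fun_prop)))

theorem wave_le (r s : ℝ) : |wave r s| ≤ 1 := by
  have hp := Real.pi_pos
  have h1 : |Real.arcsin (Real.sin (Real.pi / 2 * (s - r)))| ≤ Real.pi / 2 :=
    abs_le.2 ⟨Real.neg_pi_div_two_le_arcsin _, Real.arcsin_le_pi_div_two _⟩
  unfold wave
  rw [abs_mul, abs_of_pos (by positivity)]
  calc 2 / Real.pi * |Real.arcsin (Real.sin (Real.pi / 2 * (s - r)))|
      ≤ 2 / Real.pi * (Real.pi / 2) := by gcongr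
    _ = 1 := by field_simp

theorem wave_eq (j r : ℕ) {s : ℝ} (hs : |s - (4 * j + r : ℕ)| ≤ 1) :
    wave r s = s - (4 * j + r : ℕ) := by
  have hp := Real.pi_pos
  obtain ⟨h1, h2⟩ := abs_le.1 hs
  have h3 : Real.pi / 2 * (s - r) = Real.pi / 2 * (s - (4 * j + r : ℕ)) + j * (2 * Real.pi) := by
    push_cast; ring
  unfold wave
  rw [h3, Real.sin_add_nat_mul_two_pi, Real.arcsin_sin (by nlinarith) (by nlinarith)]
  field_simp

/-- fine partitions of unity on `[-R, R]`: the supports of each of the four colours are separated,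
as witnessed by the functions `G r` -/
theorem exists_partition (R : ℝ) {m : ℝ} (hm : 0 < m) :
    ∃ (N : ℕ) (F : Fin N → ℝ → ℝ) (c : Fin N → Fin 4) (G : Fin 4 → ℝ → ℝ) (l : Fin N → ℝ),
      (∀ k, Continuous (F k)) ∧ (∀ r, Continuous (G r)) ∧ (∀ r t, |G r t| ≤ m) ∧
      (∀ t, |t| ≤ R → ∑ k, F k t * F k t = 1) ∧
      ∀ k t, t * F k t = l k * F k t + G (c k) t * F k t := by
  obtain ⟨M, hM⟩ := exists_nat_gt (1 / m)
  have hM0 : (0 : ℝ) < M := lt_trans (by positivity) hM
  obtain ⟨N, hN⟩ := exists_nat_ge (M * (2 * R))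
  refine ⟨N + 1, fun k t => Real.sqrt (tent (k : ℕ) (M * (t + R))),
    fun k => ⟨(k : ℕ) % 4, Nat.mod_lt _ (by norm_num)⟩, fun r t => (1 / M) * wave (r : ℕ)
      (M * (t + R)), fun k => (k : ℕ) / M - R, fun k => ?_, fun r => ?_, fun r t => ?_,
    fun t ht => ?_, fun k t => ?_⟩
  · exact Real.continuous_sqrt.comp ((tent_cont _).comp (by fun_prop))
  · exact continuous_const.mul ((wave_cont _).comp (by fun_prop))
  · rw [abs_mul, abs_of_pos (by positivity)]
    have h1 : 1 / (M : ℝ) < m := by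
      rw [div_lt_iff₀ hM0]
      rw [div_lt_iff₀ hm] at hM
      linarith
    calc 1 / (M : ℝ) * |wave (r : ℕ) (M * (t + R))| ≤ 1 / M * 1 := by
          gcongr; exact wave_le _ _
      _ ≤ m := by linarith
  · obtain ⟨h1, h2⟩ := abs_le.1 ht
    rw [← tent_sum N (s := M * (t + R)) (mul_nonneg hM0.le (by linarith))
      (le_trans (by nlinarith) hN)]
    exact Finset.sum_congr rfl fun k _ => Real.mul_self_sqrt (tent_nonneg _ _)
  · by_cases hs : 1 ≤ |M * (t + R) - (k : ℕ)|
    · simp only [tent_eq_zero hs, Real.sqrt_zero, mul_zero, add_zero]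
    · have h1 := wave_eq ((k : ℕ) / 4) ((k : ℕ) % 4) (s := M * (t + R))
        (by rw [Nat.div_add_mod]; linarith)
      rw [Nat.div_add_mod] at h1
      simp only [h1]
      have h2 : t = ((k : ℕ) / M - R) + 1 / M * (M * (t + R) - (k : ℕ)) := by
        field_simp; ring
      rw [← add_mul, ← h2]

end Vale.Agent.P133.H294
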