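import Vale.Agent.P133.H294.Step
import Vale.Agent.P133.R2.H474.Her
import Mathlib.Topology.Baire.Lemmas
import Mathlib.Topology.Baire.CompleteMetrizable

/-!
P133 (helper294): weakly purely infinite C*-algebras which are residually purely infinite along
countably many closed ideals, in every quotient.
-/

open scoped ComplexOrder CStarAlgebra

namespace Vale.Agent.P133.H294

open Vale.Agent.P133 Vale.Agent.P133.Statement Vale.Agent.P133.H832 Vale.Agent.P133F
  Vale.Agent.P133.H681 Vale.Agent.P133.R2 Vale.Agent.P133.R2.H28 Vale.Agent.P133.R2.H474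

universe u

section

variable {A : Type u} [NonUnitalCStarAlgebra A] [PartialOrder A] [StarOrderedRing A]

omit [PartialOrder A] [StarOrderedRing A] in
/-- quotients with larger kernel have smaller norms -/
theorem norm_le_of_ker {B C : Type u} [NonUnitalCStarAlgebra B] [NonUnitalCStarAlgebra C]
    (φ : A →⋆ₙₐ[ℂ] B) (ψ : A →⋆ₙₐ[ℂ] C) (h : ∀ z, φ z = 0 → ψ z = 0) (x : A) :
    ‖ψ x‖ ≤ ‖φ x‖ := by
  refine le_of_forall_pos_le_add fun t ht => ?_
  obtain ⟨v, hv, hxv⟩ := lift_small' φ (x := x) (σ := ‖φ x‖ + t)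
    (add_pos_of_nonneg_of_pos (norm_nonneg _) ht) (by linarith)
  have h1 : ψ x = ψ (x - v) := by rw [map_sub, h v hv, sub_zero]
  rw [h1]
  exact (NonUnitalStarAlgHom.norm_apply_le ψ _).trans hxv

/-- a unit for the cut-down `(a - δ)₊` -/
theorem exists_unit {a : A} (ha : 0 ≤ a) {δ : ℝ} (hδ : 0 < δ) : ∃ e : A, IsSelfAdjoint e ∧
    e ∈ her a ∧ ‖e‖ ≤ 1 ∧ e * R2.H28.cut a δ = R2.H28.cut a δ := by
  have hf : Continuous (fun t : ℝ => max 0 (min 1 (t / δ))) := by fun_prop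
  have hf0 : (fun t : ℝ => max 0 (min 1 (t / δ))) 0 = 0 := by simp
  have hg : Continuous (fun t : ℝ => max (t - δ) 0) := by fun_prop
  have hg0 : (fun t : ℝ => max (t - δ) 0) 0 = 0 := by
    simp only [zero_sub]; exact max_eq_right (by linarith)
  have has := IsSelfAdjoint.of_nonneg ha
  refine ⟨cfcₙ (fun t : ℝ => max 0 (min 1 (t / δ))) a, cfcₙ_predicate _ a,
    her_cfc has (self_mem_her has) hf hf0, norm_cfcₙ_le fun t _ => ?_, ?_⟩
  · rw [Real.norm_of_nonneg (le_max_left _ _)]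
    exact max_le zero_le_one (min_le_left _ _)
  · rw [R2.H28.cut, ← cfcₙ_mul _ _ a hf.continuousOn hf0 hg.continuousOn hg0]
    congr 1
    funext t
    rcases le_total δ t with h | h
    · have h1 : 1 ≤ t / δ := (one_le_div hδ).2 h
      rw [min_eq_left h1, max_eq_right zero_le_one, one_mul]
    · rw [max_eq_right (show t - δ ≤ 0 by linarith), mul_zero]

omit [PartialOrder A] [StarOrderedRing A] in
theorem isClosedIdeal_sup' {I J : Submodule ℂ A} (hI : IsClosedIdeal I) (hJ : IsClosedIdeal J) :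
    IsClosedIdeal (I ⊔ J).topologicalClosure := by
  refine isClosedIdeal_closure fun b x hx => ?_
  obtain ⟨u, hu, v, hv, rfl⟩ := Submodule.mem_sup.1 hx
  rw [mul_add, add_mul]
  exact ⟨Submodule.add_mem_sup (hI.2 _ _ hu).1 (hJ.2 _ _ hv).1,
    Submodule.add_mem_sup (hI.2 _ _ hu).2 (hJ.2 _ _ hv).2⟩

/-- good elements are not scalar -/
theorem not_scalar_of_good {B : Type u} [NonUnitalCStarAlgebra B] {φ : A →⋆ₙₐ[ℂ] B}
    {J : Submodule ℂ A} (hJ : IsClosedIdeal J) (hk : ∀ z, φ z = 0 ↔ z ∈ J) {a e h c : A}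
    (hea : e ∈ her a) (hec : e * c = c) (hg : Good φ a e h) {P : Submodule ℂ A}
    (hP : IsClosedIdeal P) (hcP : c ∉ (P ⊔ J).topologicalClosure) (l : ℝ) :
    h * a - l • a ∉ P := by
  intro hl
  have hP' := isClosedIdeal_sup' hP hJ
  obtain ⟨C, i1, i2, i3, ψ, hψ, hψk⟩ := hP'.quot
  have hle : P ≤ (P ⊔ J).topologicalClosure :=
    le_sup_left.trans (Submodule.le_topologicalClosure _)
  have hle' : J ≤ (P ⊔ J).topologicalClosure :=
    le_sup_right.trans (Submodule.le_topologicalClosure _)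
  have hn : ∀ x, ‖ψ x‖ ≤ ‖φ x‖ :=
    norm_le_of_ker φ ψ fun z hz => (hψk z).2 (hle' ((hk z).1 hz))
  have hψc : ψ c ≠ 0 := fun h0 => hcP ((hψk _).1 h0)
  have hψa : ψ a ≠ 0 := fun h0 => by
    have h1 := her_map ψ hea
    rw [h0, mem_her] at h1
    have h2 : (Set.range fun w : C => (0 : C) * w * 0) ⊆ {0} := by
      rintro _ ⟨w, rfl⟩
      simp
    have h3 := closure_minimal h2 isClosed_singleton h1
    refine hψc ?_
    rw [← hec, map_mul, Set.mem_singleton_iff.1 h3, zero_mul]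
  have hm : ∀ (r : ℝ) (x : A), ψ (r • x) = r • ψ x := fun r x => by
    rw [← Complex.coe_smul, map_smul, Complex.coe_smul]
  have hha : ψ h * ψ a = l • ψ a := by
    have h1 := (hψk _).2 (hle hl)
    rwa [map_sub, sub_eq_zero, map_mul, hm] at h1
  have hRI : ∀ x ∈ RI a, ψ h * ψ x = l • ψ x := by
    intro x hx
    have hc : Continuous ψ := map_continuous ψ
    have h1 : IsClosed {x : A | ψ h * ψ x = l • ψ x} :=
      isClosed_eq (continuous_const.mul hc) (hc.const_smul l)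
    refine closure_minimal ?_ h1 hx
    rintro _ ⟨w, rfl⟩
    show ψ h * ψ (a * w) = l • ψ (a * w)
    rw [map_mul, ← mul_assoc, hha, smul_mul_assoc]
  have hln : |l| ≤ ‖h‖ := by
    have h1 : |l| * ‖ψ a‖ ≤ ‖h‖ * ‖ψ a‖ := by
      rw [← Real.norm_eq_abs, ← norm_smul, ← hha]
      refine (norm_mul_le _ _).trans ?_
      gcongr
      exact NonUnitalStarAlgHom.norm_apply_le ψ h
    exact le_of_mul_le_mul_right h1 (norm_pos_iff.2 hψa)
  obtain ⟨r, s, t, hs, ht, hlt⟩ := hg
  have hE : 1 ≤ ‖ψ (e * e * (e * e))‖ := by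
    have h1 : e * e * (e * e) * c = c := by
      rw [mul_assoc, mul_assoc e e c, hec, hec, mul_assoc, hec, hec]
    have h2 : ‖ψ c‖ ≤ ‖ψ (e * e * (e * e))‖ * ‖ψ c‖ := by
      calc _ = ‖ψ (e * e * (e * e)) * ψ c‖ := by rw [← map_mul, h1]
        _ ≤ _ := norm_mul_le _ _
    have h3 : 1 * ‖ψ c‖ ≤ ‖ψ (e * e * (e * e))‖ * ‖ψ c‖ := by
      rwa [one_mul]
    exact le_of_mul_le_mul_right h3 (norm_pos_iff.2 hψc)
  have e1 : r • ψ (e * e * (e * e)) = l • ψ (star s * s - star t * t) -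
      ψ (star s * (h * s) - star t * (h * t) - r • (e * e * (e * e))) := by
    have e2 : ψ (star s * (h * s)) = l • ψ (star s * s) := by
      rw [map_mul, map_mul, hRI s hs, mul_smul_comm, map_mul]
    have e3 : ψ (star t * (h * t)) = l • ψ (star t * t) := by
      rw [map_mul, map_mul, hRI t ht, mul_smul_comm, map_mul]
    rw [map_sub, map_sub, map_sub, e2, e3, hm, smul_sub]
    abel
  have h4 : |r| * ‖ψ (e * e * (e * e))‖ ≤ ‖h‖ * ‖φ (star s * s - star t * t)‖ +
      ‖φ (star s * (h * s) - star t * (h * t) - r • (e * e * (e * e)))‖ := by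
    rw [← Real.norm_eq_abs, ← norm_smul, e1]
    refine (norm_sub_le _ _).trans (add_le_add ?_ (hn _))
    rw [norm_smul, Real.norm_eq_abs]
    exact mul_le_mul hln (hn _) (norm_nonneg _) (norm_nonneg _)
  have h5 : |r| ≤ |r| * ‖ψ (e * e * (e * e))‖ := le_mul_of_one_le_right (abs_nonneg _) hE
  have h6 := le_abs_self r
  linarith

omit [PartialOrder A] [StarOrderedRing A] in
theorem isOpen_good {B : Type u} [NonUnitalCStarAlgebra B] (φ : A →⋆ₙₐ[ℂ] B) (a e : A) :
    IsOpen {h : A | Good φ a e h} := by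
  rw [isOpen_iff_mem_nhds]
  rintro h ⟨r, s, t, hs, ht, hlt⟩
  have hφ : Continuous φ := map_continuous φ
  have h1 : Continuous fun h : A => star s * (h * s) - star t * (h * t) - r • (e * e * (e * e)) := by
    fun_prop
  have h2 : Continuous fun h : A =>
      ‖φ (star s * (h * s) - star t * (h * t) - r • (e * e * (e * e)))‖ +
        ‖h‖ * ‖φ (star s * s - star t * t)‖ :=
    (hφ.comp h1).norm.add (continuous_norm.mul continuous_const)
  exact Filter.mem_of_superset ((isOpen_lt h2 continuous_const).mem_nhds hlt)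
    fun h' hh' => ⟨r, s, t, hs, ht, hh'⟩

/-- **Weak countable covers.** If `A` has `WPI A n`, then `A` is purely infinite if for all
`a ≥ 0` and `δ > 0` there are countably many closed ideals `J k` with purely infinite quotients,
such that every closed ideal without `(a - δ)₊` stays so after adding a suitable `J k`. -/
theorem eltPI_of_weakCover' {n : ℕ} (hn : WPI A n)
    (H : ∀ a : A, 0 ≤ a → ∀ δ : ℝ, 0 < δ → ∃ J : ℕ → Submodule ℂ A, (∀ k, IsClosedIdeal (J k)) ∧
      (∀ k, ∃ (B : Type u) (_ : NonUnitalCStarAlgebra B) (_ : PartialOrder B)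
        (_ : StarOrderedRing B) (φ : A →⋆ₙₐ[ℂ] B), Function.Surjective φ ∧
          (∀ z, φ z = 0 ↔ z ∈ J k) ∧ EltPI B) ∧
      ∀ P : Submodule ℂ A, IsClosedIdeal P → R2.H28.cut a δ ∉ P →
        ∃ k, R2.H28.cut a δ ∉ (P ⊔ J k).topologicalClosure) :
    EltPI A := by
  refine eltPI_of A (pi_of_twoOrth hn (twoOrth_iff.2 fun a ha δ hδ => ?_))
  obtain ⟨J, hJ, hq, hP⟩ := H a ha δ hδ
  choose B i1 i2 i3 φ hφ hk hpi using hq
  obtain ⟨e, he, hea, he1, hec⟩ := exists_unit ha hδ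
  have hcl : IsClosed {h : A | IsSelfAdjoint h ∧ h ∈ her a} := by
    refine IsClosed.inter ?_ (her_closed a)
    exact isClosed_eq continuous_star continuous_id
  have : CompleteSpace {h : A | IsSelfAdjoint h ∧ h ∈ her a} := hcl.completeSpace_coe
  have hne : Nonempty {h : A | IsSelfAdjoint h ∧ h ∈ her a} :=
    ⟨⟨0, IsSelfAdjoint.zero A, (her a).zero_mem⟩⟩
  have hd : Dense (⋂ k, {h : {h : A | IsSelfAdjoint h ∧ h ∈ her a} | Good (φ k) a e h.1}) := by
    refine dense_iInter_of_isOpen_nat (fun k => (isOpen_good (φ k) a e).preimage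
      continuous_subtype_val) fun k => ?_
    rw [Metric.dense_iff]
    intro x ε hε
    obtain ⟨h', h1, h2, h3, h4⟩ := dense_good (φ k) (hφ k)
      (diag_of_eltPI (B k) (hpi k)) ha he hea he1 x.2.1 x.2.2 hε
    exact ⟨⟨h', h1, h2⟩, by
      rw [Metric.mem_ball, Subtype.dist_eq, dist_eq_norm]; exact h3, h4⟩
  obtain ⟨⟨h, hh, hha⟩, hg⟩ := hd.nonempty
  refine ⟨h, hh, hha, fun P hPc hcP l => ?_⟩
  obtain ⟨k, hk'⟩ := hP P hPc hcP
  exact not_scalar_of_good (hJ k) (hk k) hea hec (Set.mem_iInter.1 hg k) hPc hk' l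

theorem pi_of_weakCover (hW : WeaklyPurelyInfinite A)
    (H : ∀ a : A, 0 ≤ a → ∀ δ : ℝ, 0 < δ → ∃ J : ℕ → Submodule ℂ A, (∀ k, IsClosedIdeal (J k)) ∧
      (∀ k, ∃ (B : Type u) (_ : NonUnitalCStarAlgebra B) (_ : PartialOrder B)
        (_ : StarOrderedRing B) (φ : A →⋆ₙₐ[ℂ] B), Function.Surjective φ ∧
          (∀ z, φ z = 0 ↔ z ∈ J k) ∧ PurelyInfinite B) ∧
      ∀ P : Submodule ℂ A, IsClosedIdeal P → R2.H28.cut a δ ∉ P →
        ∃ k, R2.H28.cut a δ ∉ (P ⊔ J k).topologicalClosure) :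
    PurelyInfinite A := by
  obtain ⟨n, hn⟩ := wpi_elementwise hW
  refine pi_of_eltPI (eltPI_of_weakCover' hn fun a ha δ hδ => ?_)
  obtain ⟨J, hJ, hq, hP⟩ := H a ha δ hδ
  refine ⟨J, hJ, fun k => ?_, hP⟩
  obtain ⟨B, i1, i2, i3, φ, hφ, hk, hpi⟩ := hq k
  exact ⟨B, i1, i2, i3, φ, hφ, hk, eltPI_of B hpi⟩

/-- **Weak countable covers, fixed family.** Let `J k` be countably many closed ideals with purely
infinite quotients, such that every closed ideal `P` of `A` is the intersection of the closures of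
`P + J k`. Then `A` is purely infinite if it is weakly so. -/
theorem eltPI_of_weakCover {n : ℕ} (hn : WPI A n) {J : ℕ → Submodule ℂ A}
    (hJ : ∀ k, IsClosedIdeal (J k))
    (hP : ∀ P : Submodule ℂ A, IsClosedIdeal P → ∀ x : A,
      (∀ k, x ∈ (P ⊔ J k).topologicalClosure) → x ∈ P)
    (hB : ∀ (k : ℕ) (B : Type u) [NonUnitalCStarAlgebra B] [PartialOrder B] [StarOrderedRing B]
      (φ : A →⋆ₙₐ[ℂ] B), Function.Surjective φ → (∀ x, φ x = 0 ↔ x ∈ J k) → EltPI B) :
    EltPI A := by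
  refine eltPI_of_weakCover' hn fun a _ δ _ => ⟨J, hJ, fun k => ?_, fun P hPc hc => ?_⟩
  · obtain ⟨B, i1, i2, i3, φ, hφ, hk⟩ := (hJ k).quot
    exact ⟨B, i1, i2, i3, φ, hφ, hk, hB k B φ hφ hk⟩
  · by_contra hno
    push Not at hno
    exact hc (hP P hPc _ hno)

end

end Vale.Agent.P133.H294
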